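import Crest.Agent.X212.Bki64.Fam
import Crest.Agent.X212.Tmp64.Ode
import Crest.Agent.X212.Cht98.Br
import Crest.Agent.X212.Sw.Cyl
import Crest.Agent.X212.Wz78.Hs
import Crest.Agent.X212.Wz78.Int
import Crest.Agent.X212.Eqv71.Alg

-- ▼ part X212/Win45/Gen
section

/-!
# X212, SW-WIN (helper45), part 1: interpolation, primitives in time, circle valued functions
-/

set_option autoImplicit false
set_option linter.unusedSectionVars false
noncomputable section
open scoped Manifold ContDiff Topology InnerProductSpace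
open MeasureTheory Set Function Filter

namespace Crest.Agent.X212.Win45
open An Sob92 Cyf70 Neck67 Cmp73 Bki64 Pat85

section flat
variable {α E G : Type} [NormedAddCommGroup E] [NormedSpace ℝ E] [NormedAddCommGroup G]
  [NormedSpace ℝ G] {l : Filter α} {f : α → E → G} {x : E}

theorem cb_eqc (h : CB (l ×ˢ 𝓝 x) 1 f) :
    Tendsto (fun q : α × E => f q.1 q.2 - f q.1 x) (l ×ˢ 𝓝 x) (𝓝 0) :=
  let ⟨C, hC⟩ := h.bdd
  cb_tendsto (h.sub (CB.consts (c := fun i => f i x) ⟨C, tendsto_fst.eventually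
    (hC.curry.mono fun _ hi => hi.self_of_nhds)⟩)) (by simpa using tendsto_const_nhds)

/-- bounded second jets and values tending to zero: the derivatives tend to zero -/
theorem cb_fd0 (h : CB (l ×ˢ 𝓝 x) 2 f) (hp : ∀ᶠ y in 𝓝 x, Tendsto (fun i => f i y) l (𝓝 0))
    (v : E) : Tendsto (fun i => fderiv ℝ (f i) x v) l (𝓝 0) := by
  refine NormedAddGroup.tendsto_nhds_zero.2 fun ε hε => ?_
  have h0 : 0 < ε / (‖v‖ + 3) := by positivity
  obtain ⟨pa, hpa, pb, hpb, H⟩ := eventually_prod_iff.1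
    (h.smooth.and (NormedAddGroup.tendsto_nhds_zero.1 (cb_eqc h.fd) _ h0))
  obtain ⟨r, hr, hb⟩ := Metric.eventually_nhds_iff_ball.1 hpb
  have h1 : Tendsto (fun t : ℝ => x + t • v) (𝓝[>] 0) (𝓝 x) :=
    ((by fun_prop : Continuous fun t : ℝ => x + t • v).tendsto' 0 x (by simp)).mono_left
      nhdsWithin_le_nhds
  obtain ⟨t, ⟨h2, h3⟩, ht⟩ := ((h1.eventually (hp.and (Metric.ball_mem_nhds x hr))).and
    self_mem_nhdsWithin).exists
  have ht' : 0 < t := ht
  filter_upwards [hpa, NormedAddGroup.tendsto_nhds_zero.1 h2 _ (mul_pos h0 ht'),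
    NormedAddGroup.tendsto_nhds_zero.1 hp.self_of_nhds _ (mul_pos h0 ht')] with i hi a b
  have h4 := (convex_ball x r).norm_image_sub_le_of_norm_fderiv_le' (𝕜 := ℝ) (f := f i)
    (φ := fderiv ℝ (f i) x) (fun y hy => (H hi (hb y hy)).1.differentiableAt (by simp))
    (fun y hy => (H hi (hb y hy)).2.le) (Metric.mem_ball_self hr) h3
  rw [add_sub_cancel_left, map_smul, norm_smul, Real.norm_of_nonneg ht'.le] at h4
  have h5 : t * ‖fderiv ℝ (f i) x v‖ ≤ ‖f i (x + t • v)‖ + ‖f i x‖ +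
      ‖f i (x + t • v) - f i x - t • fderiv ℝ (f i) x v‖ := by
    rw [← Real.norm_of_nonneg ht'.le, ← norm_smul, Real.norm_of_nonneg ht'.le]
    refine le_trans (le_of_eq ?_) ((norm_sub_le (f i (x + t • v) - f i x) _).trans
      (add_le_add (norm_sub_le _ _) le_rfl))
    rw [sub_sub_cancel]
  have h6 : ε = ε / (‖v‖ + 3) * (‖v‖ + 3) := by field_simp
  refine lt_of_mul_lt_mul_left (a := t) ?_ ht'.le
  rw [h6]
  nlinarith [mul_pos h0 ht']

end flat

variable {E : Type} [NormedAddCommGroup E] [NormedSpace ℝ E] [FiniteDimensional ℝ E]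
  [MeasurableSpace E] [BorelSpace E]
  {HM : Type} [TopologicalSpace HM] {I : ModelWithCorners ℝ E HM} [I.Boundaryless]
  {M : Type} [TopologicalSpace M] [ChartedSpace HM M] [IsManifold I ∞ M]
  [MeasurableSpace M] {ι : Type} [Fintype ι]
  {N : Type} [NormedAddCommGroup N] [NormedSpace ℝ N] {α : Type} {l : Filter α}
  (F : Pre I M ι) {k : ℕ}

section mf
variable {f : α → M → N} {x : M}

theorem mb_eqc (h : MB I l x 1 f) :
    Tendsto (fun q : α × M => f q.1 q.2 - f q.1 x) (l ×ˢ 𝓝 x) (𝓝 0) :=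
  let ⟨C, hC⟩ := h.bdd
  (h.sub (MB.consts (c := fun i => f i x) ⟨C, hC.curry.mono fun _ hi => hi.self_of_nhds⟩)).tendsto
    (by simpa using tendsto_const_nhds)

theorem mb_D0 (h : MB I l x 2 f) (hp : ∀ᶠ y in 𝓝 x, Tendsto (fun i => f i y) l (𝓝 0)) (a : ι) :
    Tendsto (fun i => F.D a (f i) x) l (𝓝 0) := by
  refine (cb_fd0 h ((tend_symm (I := I) (mem_chart_source HM x)).eventually hp)
    (dv I (F.e a) (extChartAt I x) x)).congr' ?_
  filter_upwards [h.smooth.curry] with i hi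
  exact (dv_chart (mem_chart_source HM x) (hi.self_of_nhds.mdifferentiableAt (by simp)) _).symm

/-- **interpolation**: bounded in `C^(k+1)` and pointwise convergent to zero -/
theorem zz_of_pt {U K O : Set M} (hU : IsOpen U) (hK : IsCompact K) (hKU : K ⊆ U) (hO : IsOpen O)
    (hOK : O ⊆ K) (k : ℕ) : ∀ {f : α → M → N}, (∀ x ∈ U, MB I l x (k + 1) f) →
    (∀ x ∈ U, Tendsto (fun i => f i x) l (𝓝 0)) → ZZ F l (fun _ => O) k f := by
  have h0 : ∀ {f : α → M → N}, (∀ x ∈ U, MB I l x 1 f) →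
      (∀ x ∈ U, Tendsto (fun i => f i x) l (𝓝 0)) → ZZ F l (fun _ => O) 0 f := fun {f} h p ε hε =>
    (ev_compact hK (p := fun i x => ContMDiffAt I 𝓘(ℝ, N) ∞ (f i) x ∧ ‖f i x‖ < ε) fun x hx =>
      (h x (hKU hx)).smooth.and (NormedAddGroup.tendsto_nhds_zero.1
        ((h x (hKU hx)).tendsto (p x (hKU hx))) ε hε)).mono fun _ hn =>
          ⟨hO, fun x hx => ⟨(hn x (hOK hx)).1, (hn x (hOK hx)).2.le⟩⟩
  induction k with
  | zero => exact h0
  | succ k ih =>
    exact fun h p => (h0 (fun x hx => (h x hx).of_le (by omega)) p).succ fun a =>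
      ih (fun x hx => (h x hx).dv (MB.vf (Eventually.of_forall (F.sm a)))) fun x hx =>
        mb_D0 F ((h x hx).of_le (by omega)) ((hU.eventually_mem hx).mono p) a

/-! ### circle valued functions -/

/-- the logarithmic derivative -/
def lg (i : ι) (u : M → ℂ) (x : M) : ℝ := (star (u x) * F.D i u x).im

variable {u v : M → ℂ}

/-- a circle valued function near `x` -/
def Un (I : ModelWithCorners ℝ E HM) (u : M → ℂ) (x : M) : Prop :=
  ContMDiffAt I 𝓘(ℝ, ℂ) ∞ u x ∧ ∀ᶠ y in 𝓝 x, ‖u y‖ = 1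

theorem Un.md (h : Un I u x) : MDifferentiableAt I 𝓘(ℝ, ℂ) u x := h.1.mdifferentiableAt (by simp)

theorem st_mul {z : ℂ} (h : ‖z‖ = 1) : star z * z = 1 := by
  rw [Complex.star_def, Complex.conj_mul', h]; simp

theorem D_mul (hu : MDifferentiableAt I 𝓘(ℝ, ℂ) u x) (hv : MDifferentiableAt I 𝓘(ℝ, ℂ) v x)
    (i : ι) : F.D i (fun y => u y * v y) x = F.D i u x * v x + u x * F.D i v x :=
  dv_bil (ContinuousLinearMap.mul ℝ ℂ) hu hv

theorem D_star (hu : MDifferentiableAt I 𝓘(ℝ, ℂ) u x) (i : ι) :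
    F.D i (fun y => star (u y)) x = star (F.D i u x) :=
  dv_clm (Complex.conjCLE : ℂ →L[ℝ] ℂ) hu

theorem Un.st (h : Un I u x) : Un I (fun y => star (u y)) x :=
  ⟨(Complex.conjCLE : ℂ →L[ℝ] ℂ).contMDiff.contMDiffAt.comp x h.1,
    h.2.mono fun y hy => by rw [norm_star, hy]⟩

theorem Un.mul (h : Un I u x) (h' : Un I v x) : Un I (fun y => u y * v y) x :=
  ⟨((ContinuousLinearMap.mul ℝ ℂ).contMDiff.contMDiffAt.comp x h.1).clm_apply h'.1,
    (h.2.and h'.2).mono fun y hy => by rw [norm_mul, hy.1, hy.2, one_mul]⟩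

theorem Un.D (h : Un I u x) (i : ι) : F.D i u x = lg F i u x • (Complex.I * u x) := by
  have h1 := D_mul F h.st.md h.md i
  have h2 : F.D i (fun y => star (u y) * u y) x = 0 :=
    (dv_congr (h.2.mono fun y hy => st_mul hy)).trans (congrFun (dv_const (1 : ℂ)) x)
  rw [D_star F h.md, h2] at h1
  have h3 : star (u x) * F.D i u x = lg F i u x • Complex.I := by
    have := congrArg Complex.re h1
    refine Complex.ext ?_ (by simp [lg])
    simp at this ⊢
    linarith
  rw [← smul_mul_assoc, ← h3, mul_right_comm, st_mul h.2.self_of_nhds, one_mul]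

theorem lg_of {r : ℝ} {i : ι} (h : ‖u x‖ = 1) (e : F.D i u x = r • (Complex.I * u x)) :
    lg F i u x = r := by
  rw [lg, e, mul_smul_comm, mul_left_comm, st_mul h]; simp

theorem lg_mul (h : Un I u x) (h' : Un I v x) (i : ι) :
    lg F i (fun y => u y * v y) x = lg F i u x + lg F i v x :=
  lg_of F (h.mul h').2.self_of_nhds (by
    rw [D_mul F h.md h'.md, h.D F, h'.D F, add_smul, smul_mul_assoc, mul_smul_comm]; ring_nf)

theorem lg_star (h : Un I u x) (i : ι) : lg F i (fun y => star (u y)) x = -lg F i u x :=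
  lg_of F h.st.2.self_of_nhds (by rw [D_star F h.md, h.D F]; simp)

theorem un_of {O : Set M} (hO : IsOpen O) (h : ∀ x ∈ O, ContMDiffAt I 𝓘(ℝ, ℂ) ∞ u x ∧ ‖u x‖ = 1)
    (hx : x ∈ O) : Un I u x := ⟨(h x hx).1, (hO.eventually_mem hx).mono fun y hy => (h y hy).2⟩

variable {F} in
/-- gauge transformations between bounded forms are bounded, with one more derivative -/
theorem bb_un {S : α → Set M} {g : α → M → ℂ} (hS : ∀ᶠ n in l, IsOpen (S n))
    (hg : ∀ᶠ n in l, ∀ x ∈ S n, Un I (g n) x) (h : ∀ i, BB F l S k fun n => lg F i (g n)) :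
    BB F l S (k + 1) g :=
  (BB.zero_of hS (hg.mono fun _ hn x hx => ⟨(hn x hx).1, (hn x hx).2.self_of_nhds.le⟩)).boot
    fun _ hj hb i => (((h i).of_le hj).smul (hb.clm (ContinuousLinearMap.mul ℝ ℂ Complex.I))).congr
      (hg.mono fun _ hn x hx => (hn x hx).D F i)

end mf

/-! ### the cylinder -/

section cyl
open Tmp64
variable [BorelSpace M] [SigmaCompactSpace M] [T2Space M]

/-- windows -/
abbrev wn (s r : ℝ) : Set (M × ℝ) := univ ×ˢ Ioo (s - r) (s + r)

omit [MeasurableSpace M] [BorelSpace M] [SigmaCompactSpace M] [T2Space M] in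
theorem wn_op {s r : ℝ} : IsOpen (wn s r : Set (M × ℝ)) := isOpen_univ.prod isOpen_Ioo

theorem pt_of_l2 {f : α → M × ℝ → N} {J : Set ℝ} (hJ : IsOpen J) {x : M × ℝ} (hx : x.2 ∈ J)
    (h : Tendsto (fun q : α × M × ℝ => f q.1 q.2 - f q.1 x) (l ×ˢ 𝓝 x) (𝓝 0))
    (hi : Tendsto (fun n => ∫⁻ t in J, ∫⁻ y, ‖f n (y, t)‖ₑ ^ 2 ∂F.μ) l (𝓝 0)) :
    Tendsto (fun n => f n x) l (𝓝 0) := by
  refine NormedAddGroup.tendsto_nhds_zero.2 fun ε hε => ?_
  obtain ⟨pa, hpa, pb, hpb, H⟩ := eventually_prod_iff.1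
    (NormedAddGroup.tendsto_nhds_zero.1 h _ (half_pos hε))
  obtain ⟨V, J', hV, h1, hJ', h2, h3⟩ := mem_nhds_prod_iff'.1
    (hpb.and (continuous_snd.continuousAt.eventually (hJ.eventually_mem hx)))
  have := Cht98.openPos F
  have h4 : 0 < ENNReal.ofReal (ε / 2) ^ 2 * F.μ V * volume J' :=
    ENNReal.mul_pos (ENNReal.mul_pos (by positivity) (hV.measure_ne_zero _ ⟨_, h1⟩)).ne'
      (hJ'.measure_ne_zero _ ⟨_, h2⟩)
  filter_upwards [hpa, hi.eventually (gt_mem_nhds h4)] with n a b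
  refine not_le.1 fun c => b.not_ge ?_
  rw [← setLIntegral_const]
  refine (setLIntegral_mono' hJ'.measurableSet fun t ht => ?_).trans
    (lintegral_mono_set fun t ht => (h3 (mk_mem_prod h1 ht)).2)
  rw [← setLIntegral_const]
  refine (setLIntegral_mono' hV.measurableSet fun y hy => ?_).trans (setLIntegral_le_lintegral _ _)
  have h5 := H a (h3 (mk_mem_prod hy ht)).1
  have h6 := norm_sub_norm_le (f n x) (f n (y, t))
  rw [norm_sub_rev] at h6
  rw [← ofReal_norm]
  gcongr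
  linarith

variable {F}

/-- **interpolation** on moving windows -/
theorem zz_of_l2 [CompactSpace M] {s : α → ℝ} {r r' : ℝ} (hr : r' < r) {f : α → M × ℝ → N}
    (h : BB (cylP F) l (fun n => wn (s n) r) (k + 1) f)
    (hi : Tendsto (fun n => ∫⁻ t in Ioo (s n - r) (s n + r), ∫⁻ y, ‖f n (y, t)‖ₑ ^ 2 ∂F.μ) l
      (𝓝 0)) : ZZ (cylP F) l (fun n => wn (s n) r') k f := by
  have h1 : BB (cylP F) l (fun _ => wn 0 r) (k + 1) fun n x => f n (sq (· + s n) x) :=
    (h.tr s).mono le_rfl le_rfl (Eventually.of_forall fun n => ⟨wn_op, fun x hx =>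
      ⟨trivial, by have := hx.2.1; dsimp [Tmp64.sq]; linarith, by have := hx.2.2; dsimp [Tmp64.sq]; linarith⟩⟩)
  have h2 := zz_of_pt (cylP F) wn_op (isCompact_univ.prod (isCompact_Icc (a := 0 - r') (b := 0 + r')))
    (prod_mono_right (Icc_subset_Ioo (by linarith) (by linarith))) wn_op
    (prod_mono_right Ioo_subset_Icc_self) k (fun x hx => h1.mb hx) fun x hx =>
      pt_of_l2 F isOpen_Ioo hx.2 (mb_eqc ((h1.mb hx).of_le (by omega))) (hi.congr fun n => by
        rw [← (measurePreserving_add_right volume (s n)).setLIntegral_comp_preimage_emb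
          (MeasurableEquiv.addRight (s n)).measurableEmbedding]
        simp [Tmp64.sq])
  refine ((h2.tr fun n => -s n).mono le_rfl le_rfl (Eventually.of_forall fun n => ⟨wn_op, fun x hx =>
    ⟨trivial, by have := hx.2.1; dsimp [Tmp64.sq]; linarith,
      by have := hx.2.2; dsimp [Tmp64.sq]; linarith⟩⟩)).congr' fun n x => ?_
  simp [Tmp64.sq]

/-- primitives in time -/
theorem lb_prim {a b t C : ℝ} (ht : t ∈ Ioo a b) (hC : 0 ≤ C) : ∀ {k : ℕ} {θ : M × ℝ → N},
    (∀ x ∈ univ ×ˢ Ioo a b, ContMDiffAt (IC I) 𝓘(ℝ, N) ∞ θ x) → (∀ y, θ (y, t) = 0) →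
    Lb (cylP F) (univ ×ˢ Ioo a b) k ((cylP F).D none θ) C →
    Lb (cylP F) (univ ×ˢ Ioo a b) k θ ((b - a + 1) * C) := by
  have hab : 0 ≤ b - a := by linarith [ht.1, ht.2]
  have h0 : ∀ {θ : M × ℝ → N}, (∀ x ∈ univ ×ˢ Ioo a b, ContMDiffAt (IC I) 𝓘(ℝ, N) ∞ θ x) →
      (∀ y, θ (y, t) = 0) → Lb (cylP F) (univ ×ˢ Ioo a b) 0 ((cylP F).D none θ) C →
      Lb (cylP F) (univ ×ˢ Ioo a b) 0 θ ((b - a + 1) * C) := fun {θ} hs h1 h2 x hx => by
    have hd := fun s (hs' : s ∈ Ioo a b) =>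
      (hs (x.1, s) ⟨trivial, hs'⟩).mdifferentiableAt (by simp)
    have := (convex_Ioo a b).norm_image_sub_le_of_norm_deriv_le (f := fun s => θ (x.1, s))
      (fun s hs' => diff_slice_snd (hd s hs'))
      (fun s hs' => (congrArg norm (D_none_at F (hd s hs'))).symm.trans_le (h2.le ⟨trivial, hs'⟩))
      ht hx.2
    rw [h1, sub_zero] at this
    refine ⟨hs x hx, this.trans ?_⟩
    rw [mul_comm]
    refine mul_le_mul_of_nonneg_right (abs_le.2 ⟨?_, ?_⟩) hC <;>
      linarith [ht.1, ht.2, hx.2.1, hx.2.2]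
  intro k
  induction k with
  | zero => exact h0
  | succ k ih =>
    refine fun {θ} hs h1 h2 => ⟨h0 hs h1 h2.zero, fun i => ?_⟩
    cases i with
    | none => exact h2.pred.mono (by nlinarith)
    | some i =>
      refine ih (fun x hx => dv_smoothAt ((cylP F).sm _ x) (hs x hx)) (fun y => ?_)
        ((h2.D (some i)).congr (isOpen_univ.prod isOpen_Ioo) fun x hx =>
          dv_comm F.sm ((hs x hx).of_le two_le) i)
      rw [D_some_at F ((hs (y, t) ⟨trivial, ht⟩).mdifferentiableAt (by simp))]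
      simp [h1, Pre.D_def]

theorem lb_fst {O : Set (M × ℝ)} (hO : IsOpen O) {C : ℝ} (hC : 0 ≤ C) : ∀ {k : ℕ} {φ : M → N},
    Lb F univ k φ C → Lb (cylP F) O k (fun x => φ x.1) C := by
  intro k
  induction k with
  | zero => exact fun h x _ => ⟨sm_fst (fun y => h.sm (mem_univ y)) x, h.le trivial⟩
  | succ k ih =>
    refine fun h => ⟨fun x _ => ⟨sm_fst (fun y => h.sm (mem_univ y)) x, h.le trivial⟩, fun a => ?_⟩
    cases a with
    | none => rw [D_none_fst F fun y => h.sm (mem_univ y)]; exact (Lb.const hO 0).mono (by simpa)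
    | some a => rw [D_some_fst F fun y => h.sm (mem_univ y)]; exact ih (h.D a)

theorem lb_slc {J : Set ℝ} {t C : ℝ} (ht : t ∈ J) : ∀ {k : ℕ} {f : M × ℝ → N},
    Lb (cylP F) (univ ×ˢ J) k f C → Lb F univ k (fun y => f (y, t)) C := by
  have h0 : ∀ {f : M × ℝ → N}, Lb (cylP F) (univ ×ˢ J) 0 f C → Lb F univ 0 (fun y => f (y, t)) C :=
    fun h y _ => ⟨(h.sm ⟨trivial, ht⟩).comp y (contMDiffAt_id.prodMk contMDiffAt_const),
      h.le ⟨trivial, ht⟩⟩
  intro k
  induction k with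
  | zero => exact h0
  | succ k ih => exact fun h => ⟨h0 h.zero, fun a => (ih (h.D (some a))).congr isOpen_univ
      fun y _ => (D_some_at F (h.md (x := (y, t)) ⟨trivial, ht⟩) a).symm⟩

variable {S : α → Set (M × ℝ)} {s t : α → ℝ} {r : ℝ} {f : α → M × ℝ → N} {φ : α → M → N}

theorem bb_fst (hS : ∀ᶠ n in l, IsOpen (S n)) (h : BB F l (fun _ => univ) k φ) :
    BB (cylP F) l S k fun n x => φ n x.1 :=
  let ⟨C, hC, h⟩ := h.pos
  ⟨C, (hS.and h).mono fun _ h => ⟨h.1, lb_fst h.1 hC.le h.2.2⟩⟩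

theorem zz_fst (hS : ∀ᶠ n in l, IsOpen (S n)) (h : ZZ F l (fun _ => univ) k φ) :
    ZZ (cylP F) l S k fun n x => φ n x.1 := fun ε hε =>
  (hS.and (h ε hε)).mono fun _ h => ⟨h.1, lb_fst h.1 hε.le h.2.2⟩

theorem bb_slc (h : BB (cylP F) l (fun n => wn (s n) r) k f)
    (ht : ∀ n, t n ∈ Ioo (s n - r) (s n + r)) : BB F l (fun _ => univ) k fun n y => f n (y, t n) :=
  h.imp fun _ h => h.mono fun n h => ⟨isOpen_univ, lb_slc (ht n) h.2⟩

theorem lb_prim' {a b t C : ℝ} (ht : t ∈ Ioo a b) (hC : 0 ≤ C) {θ : M × ℝ → N}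
    (hs : ∀ x ∈ univ ×ˢ Ioo a b, ContMDiffAt (IC I) 𝓘(ℝ, N) ∞ θ x)
    (h : Lb (cylP F) (univ ×ˢ Ioo a b) k ((cylP F).D none θ) C) :
    Lb (cylP F) (univ ×ˢ Ioo a b) k (fun x => θ x - θ (x.1, t)) ((b - a + 1) * C) := by
  have h1 : Sm I fun y => θ (y, t) := fun y =>
    (hs _ ⟨trivial, ht⟩).comp y (contMDiffAt_id.prodMk contMDiffAt_const)
  refine lb_prim ht hC (fun x hx => (hs x hx).sub (sm_fst h1 x)) (fun y => sub_self _)
    (h.congr (isOpen_univ.prod isOpen_Ioo) fun x hx => ?_)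
  exact (dv_sub ((hs x hx).mdifferentiableAt (by simp))
    ((sm_fst h1 x).mdifferentiableAt (by simp))).trans
      (sub_eq_self.2 (congrFun (D_none_fst F h1) x))

theorem bb_prim (ht : ∀ n, t n ∈ Ioo (s n - r) (s n + r))
    (hs : ∀ n, ∀ x ∈ wn (s n) r, ContMDiffAt (IC I) 𝓘(ℝ, N) ∞ (f n) x)
    (h : BB (cylP F) l (fun n => wn (s n) r) k fun n => (cylP F).D none (f n)) :
    BB (cylP F) l (fun n => wn (s n) r) k fun n x => f n x - f n (x.1, t n) :=
  let ⟨C, hC, h⟩ := h.pos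
  ⟨(2 * r + 1) * C, h.mono fun n h => ⟨h.1, (lb_prim' (ht n) hC.le (hs n) h.2).mono
    (le_of_eq (by ring))⟩⟩

theorem zz_prim (ht : ∀ n, t n ∈ Ioo (s n - r) (s n + r))
    (hs : ∀ n, ∀ x ∈ wn (s n) r, ContMDiffAt (IC I) 𝓘(ℝ, N) ∞ (f n) x)
    (h : ZZ (cylP F) l (fun n => wn (s n) r) k fun n => (cylP F).D none (f n)) :
    ZZ (cylP F) l (fun n => wn (s n) r) k fun n x => f n x - f n (x.1, t n) := fun ε hε => by
  have h1 : 0 < ε / (2 * |r| + 1) := by positivity
  refine (h _ h1).mono fun n h => ⟨h.1, (lb_prim' (ht n) h1.le (hs n) h.2).mono ?_⟩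
  calc _ ≤ (2 * |r| + 1) * (ε / (2 * |r| + 1)) := by gcongr; linarith [le_abs_self r]
    _ = ε := by field_simp

/-- the temporal gauge -/
theorem exists_tmp {s r r' : ℝ} (h0 : 0 < r') (hr : r' < r) {a : M × ℝ → ℝ}
    (ha : ContMDiffOn (IC I) 𝓘(ℝ, ℝ) ∞ a (wn s r)) (t : ℝ) {g : M → ℂ} (hg : Sm I g)
    (h1 : ∀ y, ‖g y‖ = 1) : ∃ u : M × ℝ → ℂ, Sm (IC I) u ∧ (∀ x, ‖u x‖ = 1) ∧
      (∀ y, u (y, t) = g y) ∧ ∀ x ∈ wn s r', lg (cylP F) none u x = a x := by
  let β : ContDiffBump s := ⟨r', (r' + r) / 2, h0, by linarith⟩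
  have h2 : Sm (IC I) fun x : M × ℝ => β x.2 • a x := contMDiff_of_tsupport fun x hx => by
    have h3 : x.2 ∈ tsupport β := (continuous_snd.closure_preimage_subset _)
      (tsupport_smul_subset_left (fun x : M × ℝ => β x.2) a hx)
    rw [β.tsupport_eq, Real.closedBall_eq_Icc] at h3
    exact (sm_snd β.contDiff x).smul (ha.contMDiffAt (wn_op.mem_nhds
      ⟨trivial, by have := h3.1; dsimp [β] at this; linarith,
        by have := h3.2; dsimp [β] at this; linarith⟩))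
  obtain ⟨u, u1, u2, u3⟩ := exists_sol (I := I)
    (A := fun x => (β x.2 • a x) • ContinuousLinearMap.mul ℝ ℂ Complex.I)
    (h2.smul contMDiff_const) t hg
  have u4 : ∀ x, ‖u x‖ = 1 := fun x => by
    have := const_of_deriv (f := fun s => ‖u (x.1, s)‖ ^ 2)
      (fun s => (u3 x.1 s).norm_sq.congr_deriv (by
        simp [Complex.inner, mul_comm]; ring)) x.2 t
    rw [u2, h1, one_pow] at this
    exact (pow_eq_one_iff_of_nonneg (norm_nonneg _) two_ne_zero).1 this
  refine ⟨u, u1, u4, u2, fun x hx => lg_of _ (u4 x) ?_⟩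
  have := (hasDerivAt_slice F u1 x.1 x.2).unique (u3 x.1 x.2)
  rwa [β.one_of_mem_closedBall (by
    rw [Real.closedBall_eq_Icc]; exact Ioo_subset_Icc_self hx.2), one_smul] at this

end cyl

end Crest.Agent.X212.Win45
end
end

-- ▼ part X212/Win45/Jet

/-!
# X212, SW-WIN (helper45), part 2: jets, gauge transformations, slices, the flow equations
-/

set_option autoImplicit false
set_option linter.unusedSectionVars false
noncomputable section
open scoped Manifold ContDiff Topology InnerProductSpace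
open MeasureTheory Set Function Filter

namespace Crest.Agent.X212.Win45
open An Sob92 Cyf70 Neck67 Cmp73 Bki64 Wz78
open Sw (Bg F2 En3)

variable {κ lam ν : Type} [Fintype κ] [Fintype lam] [Fintype ν] [DecidableEq ν]

section bg
variable {E : Type} [NormedAddCommGroup E] [NormedSpace ℝ E] [FiniteDimensional ℝ E]
  [MeasurableSpace E] [BorelSpace E]
  {HM : Type} [TopologicalSpace HM] {I : ModelWithCorners ℝ E HM} [I.Boundaryless]
  {M : Type} [TopologicalSpace M] [ChartedSpace HM M] [IsManifold I ∞ M] [MeasurableSpace M]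
  {ι : Type} [Fintype ι] {α : Type} {l : Filter α} {S : α → Set M} {k : ℕ} {x : M} {u v : M → ℂ}

theorem Un.sD (F : Pre I M ι) (h : Un I u x) (i : ι) : SA I (F.D i u) x := dv_smoothAt (F.sm i x) h.1

theorem Un.slg (F : Pre I M ι) (h : Un I u x) (i : ι) : SA I (lg F i u) x :=
  Complex.imCLM.contMDiff.contMDiffAt.comp x (SA.mul h.st.1 (h.sD F i))

theorem D_lg (F : Pre I M ι) (h : Un I u x) (i j : ι) :
    F.D i (lg F j u) x = (star (u x) * F.D i (F.D j u) x).im := by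
  refine (dv_clm Complex.imCLM (SA.mul h.st.1 (h.sD F j)).md).trans ?_
  have := D_mul F h.st.md (h.sD F j).md i
  rw [D_star F h.md, h.D F i, h.D F j] at this
  rw [← F.D_def, this]
  simp
  ring

/-- logarithmic derivatives are closed -/
theorem d1_lg (F : Fr I M ι) (h : Un I u x) (i j : ι) :
    d1 I F.e F.c (fun i => lg F.toPre i u) i j x = 0 := by
  have := (frm F).brV i j h.1
  simp only [d1, ← F.D_def, D_lg F.toPre h] at this ⊢
  rw [← Complex.sub_im, ← mul_sub, this]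
  simp [lg, Finset.mul_sum, mul_left_comm]

theorem bb_cs {F : Pre I M ι} (J : En ν) {g : α → M → ℂ} {f : α → M → Eu ν} (hg : BB F l S k g)
    (hf : BB F l S k f) : BB F l S k fun n x => cs J (g n x) (f n x) :=
  ((hg.clm Complex.reCLM).smul hf).add ((hg.clm Complex.imCLM).smul (hf.clm J))

theorem zz_cs {F : Pre I M ι} (J : En ν) {g : α → M → ℂ} {f : α → M → Eu ν} (hg : BB F l S k g)
    (hf : ZZ F l S k f) : ZZ F l S k fun n x => cs J (g n x) (f n x) :=
  ((hg.clm Complex.reCLM).smulZ hf).add ((hg.clm Complex.imCLM).smulZ (hf.clm J))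

/-- two gauges in which the form is bounded -/
theorem bb_tr {F : Pre I M ι} {J : En ν} (hJ : J * J = -1) {u v : α → M → ℂ}
    (hu : ∀ n, ∀ x ∈ S n, Un I (u n) x) (hv : ∀ n, ∀ x ∈ S n, Un I (v n) x) {a : ι → α → M → ℝ}
    (h1 : ∀ i, BB F l S k fun n x => a i n x - lg F i (u n) x)
    (h2 : ∀ i, BB F l S k fun n x => a i n x - lg F i (v n) x) {f : α → M → Eu ν}
    (h : BB F l S (k + 1) fun n x => cs J (u n x) (f n x)) :
    BB F l S (k + 1) fun n x => cs J (v n x) (f n x) := by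
  refine (bb_cs J (bb_un (g := fun n x => v n x * star (u n x)) h.op
    (.of_forall fun n x hx => (hv n x hx).mul (hu n x hx).st) fun i =>
      ((h1 i).sub (h2 i)).congr (.of_forall fun n x hx => ?_)) h).congr
        (.of_forall fun n x hx => ?_)
  · rw [lg_mul F (hv n x hx) (hu n x hx).st, lg_star F (hu n x hx)]; ring
  · rw [Eqv71.cs_mul hJ, mul_assoc, st_mul (hu n x hx).2.self_of_nhds, mul_one]

theorem bb_pi {F : Pre I M ι} {β : Type} [Fintype β] (hS : ∀ᶠ n in l, IsOpen (S n))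
    {f : α → M → Eu β} (h : ∀ s, BB F l S k fun n x => f n x s) : BB F l S k f := by
  classical
  exact (BB.sum hS fun s => (h s).smul (BB.const hS (EuclideanSpace.single s (1 : ℝ)))).congr
    (.of_forall fun n x _ => (eu_sum _).symm)

theorem cv_int [CompactSpace M] [T2Space M] [BorelSpace M] [l.NeBot] (F : Pre I M ι)
    {f : α → M → ℝ} {g : M → ℝ} (h : Cv I l univ f g) :
    Tendsto (fun n => ∫ x, f n x ∂F.μ) l (𝓝 (∫ x, g x ∂F.μ)) := by
  have : IsFiniteMeasure F.μ := CompactSpace.isFiniteMeasure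
  have hi : ∀ {f : M → ℝ}, (∀ x ∈ univ, ContMDiffAt I 𝓘(ℝ, ℝ) ∞ f x) → Integrable f F.μ := fun h =>
    (continuous_iff_continuousAt.2 fun x => (h x trivial).continuousAt).integrable_of_hasCompactSupport
      (.of_compactSpace _)
  refine Metric.tendsto_nhds.2 fun ε hε => ?_
  have h0 : 0 ≤ F.μ.real univ := measureReal_nonneg
  filter_upwards [h.unif isOpen_univ isCompact_univ Subset.rfl (div_pos hε (by positivity :
    0 < F.μ.real univ + 1)), h.mb.smooth isCompact_univ Subset.rfl] with n h1 h2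
  rw [dist_eq_norm, ← integral_sub (hi h2) (hi fun x hx => h.smoothAt isOpen_univ hx)]
  refine (norm_integral_le_of_norm_le_const (.of_forall fun x => (h1 x trivial).le)).trans_lt ?_
  rw [div_mul_eq_mul_div, div_lt_iff₀ (by positivity)]
  nlinarith

variable {nc : ℕ} {b : Bg I M κ lam ν nc} {c : Sw.Cfg M κ ν} (hb : b.OK)
include hb

theorem p_of {w : Eu ν} (h : b.pp x w = w) : b.m.p x w = w := by
  have : b.m.p x * b.pp x = b.pp x := by
    simp only [Bg.pp, Bg.vol, mul_smul_comm, mul_sub, hb.m.pidem x trivial, Finset.mul_sum,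
      ← mul_assoc, (hb.m.cl x trivial).pl]
  rw [← h]
  exact congrArg (fun T : En ν => T w) this

theorem s_jp (x : M) : SA I b.jp x := SA.mul contMDiffAt_const (hb.cc.sp x)

theorem jp_nrm (x : M) : ⟪hsL (b.jp x), hsL (b.jp x)⟫_ℝ = 8 := by
  have h : Skw (b.jp x) := fun v w => by
    rw [Bg.jp, mul_apply_eq_comp, hb.m.Jsk, hb.m.psym x trivial, hb.m.Jp x trivial,
      mul_apply_eq_comp]
  rw [inner_hsL_skw h, Bg.jp, mul_assoc, ← mul_assoc (b.m.p x), ← hb.m.Jp x trivial, mul_assoc,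
    hb.m.pidem x trivial, ← mul_assoc, hb.m.Jsq, neg_one_mul, map_neg, neg_neg, trE_eq,
    hb.m.prk x trivial]

theorem curv_W (ha : ∀ i, SA I (c.a i) x) (i j : Option κ) : curv I b.F.e b.F.c (b.W c) i j x =
    curv I b.F.e b.F.c b.A i j x + d1 I b.F.e b.F.c c.a i j x • b.jp x :=
  curv_add_smul (fun i => hb.cc.sm i x) ha (s_jp hb x) (fun i => by
    have := dv_mul (e := b.F.e i) (f := fun _ => b.m.J) contMDiffAt_const (hb.cc.sp x)
    rw [nabE, show b.jp = fun y => b.m.J * b.m.p y from rfl, this, dv_const, Pi.zero_apply,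
      zero_mul, zero_add, ← mul_assoc, ← hb.AJ, mul_assoc, mul_assoc, ← mul_sub, ← mul_add,
      hb.cc.par, mul_zero]) i j

theorem fc_eq (ha : ∀ i, SA I (c.a i) x) (s : Option κ × Option κ) :
    b.fc c x s = b.fc ⟨0, 0⟩ x s + d1 I b.F.e b.F.c c.a s.1 s.2 x := by
  simp only [Bg.fc, curv_W hb ha, curv_W hb (c := ⟨0, 0⟩) fun _ => contMDiffAt_const, map_add,
    map_smul, inner_add_right, real_inner_smul_right, jp_nrm hb]
  simp [d1]
  ring

omit hb in
theorem d1_act (ha : ∀ i, SA I (c.a i) x) (h : Un I u x) (i j : Option κ) :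
    d1 I b.F.e b.F.c (b.act u c).a i j x = d1 I b.F.e b.F.c c.a i j x := by
  have h1 := d1_lg b.F h i j
  have h2 : ∀ i, (b.act u c).a i = fun y => c.a i y - lg b.F.toPre i u y := fun _ => rfl
  simp only [d1, h2, fun i j => dv_sub' (e := b.F.e i) (ha j) (h.slg b.F.toPre j), smul_sub,
    Finset.sum_sub_distrib] at h1 ⊢
  linarith

theorem fc_act (ha : ∀ i, SA I (c.a i) x) (h : Un I u x) : b.fc (b.act u c) x = b.fc c x := by
  ext s
  rw [fc_eq hb (c := b.act u c) fun i => (ha i).sub (h.slg b.F.toPre i), d1_act ha h, fc_eq hb ha]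

omit hb in
theorem p2_apply (η : F2 κ) (s : Option κ × Option κ) : b.p2 x η s = ∑ t, b.B.sd x s t * η t := by
  simp [Bg.p2]

section cv
variable [l.NeBot] {Ω : Set M} (hΩ : IsOpen Ω) {c : α → Sw.Cfg M κ ν} {c' : Sw.Cfg M κ ν}
  (ha : ∀ i, Cv I l Ω (fun n => (c n).a i) (c'.a i))
include hΩ ha

theorem cv_W (i : Option κ) : Cv I l Ω (fun n => b.W (c n) i) (b.W c' i) :=
  (Cv.fixed' (hb.cc.sm i)).add ((ha i).smul (Cv.fixed' (s_jp hb)))

theorem cv_fc (s : Option κ × Option κ) :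
    Cv I l Ω (fun n x => b.fc (c n) x s) fun x => b.fc c' x s :=
  have W := cv_W hb hΩ ha
  (((Cv.fixed' (s_jp hb)).clm hsL).bil (innerSL ℝ) ((((((W s.2).D hΩ b.F.toPre s.1).sub
    ((W s.1).D hΩ b.F.toPre s.2)).add (((W s.1).mul (W s.2)).sub ((W s.2).mul (W s.1)))).sub
    (Cv.sum fun k => (Cv.fixed' (b.F.c_sm s.1 s.2 k)).smul (W k))).clm hsL)).const_smul (1 / 8)

variable (hΦ : Cv I l Ω (fun n => (c n).Φ) c'.Φ)
include hΦ

theorem cv_eC (s : Option κ × Option κ) :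
    Cv I l Ω (fun n x => b.eC (c n) x s) fun x => b.eC c' x s := by
  have P := fun i j => Cv.fixed' (l := l) (Ω := Ω) (hb.B.sP i j)
  have R := fun i => Cv.fixed' (l := l) (Ω := Ω) (hb.cc.sρ i)
  simp only [Bg.eC, PiLp.sub_apply, p2_apply, Base.sd, Base.a2, Base.st, div_eq_inv_mul]
  exact (Cv.sum fun t => ((((((P _ _).mul (P _ _)).sub ((P _ _).mul (P _ _))).const_smul _).add
    ((Cv.fixed' (hb.B.so _ _ _ _)).const_smul _)).const_smul _).mul ((cv_fc hb hΩ ha t).sub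
      ((((((R _).app ((R _).app hΦ)).clm b.m.J).bil (innerSL ℝ) hΦ).const_smul _).const_smul _))).sub
        ((Cv.fixed' hb.com.choose_spec.1).clm (PiLp.proj 2 (fun _ => ℝ) s))

theorem cv_eD : Cv I l Ω (fun n => b.eD (c n)) (b.eD c') :=
  (Cv.sum fun i => (Cv.fixed' (hb.cc.sρ i)).app ((hΦ.D hΩ b.F.toPre i).add
    ((cv_W hb hΩ ha i).app hΦ))).add ((Cv.fixed' hb.cms.choose_spec.1).app hΦ)

end cv

theorem sm_fc (h : ∀ i, Sm I (c.a i)) (s : Option κ × Option κ) : Sm I fun x => b.fc c x s :=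
  fun x => (cv_fc hb (l := (⊤ : Filter Unit)) isOpen_univ (c := fun _ => c)
    (fun i => Cv.fixed' (h i)) s).smoothAt isOpen_univ (mem_univ x)

theorem sm_eC (h : b.Adm c) (s : Option κ × Option κ) : Sm I fun x => b.eC c x s :=
  fun x => (cv_eC hb (l := (⊤ : Filter Unit)) isOpen_univ (c := fun _ => c)
    (fun i => Cv.fixed' (h.sa i)) (Cv.fixed' h.sΦ) s).smoothAt isOpen_univ (mem_univ x)

theorem sm_eD (h : b.Adm c) : Sm I (b.eD c) :=
  fun x => (cv_eD hb (l := (⊤ : Filter Unit)) isOpen_univ (c := fun _ => c)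
    (fun i => Cv.fixed' (h.sa i)) (Cv.fixed' h.sΦ)).smoothAt isOpen_univ (mem_univ x)

end bg

end Crest.Agent.X212.Win45
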